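import Crest.Agent.R137.BorsukUlam

/-! Brouwer's fixed point theorem (for bounded maps of `κ → ℝ`) from Borsuk–Ulam, and approximate
fixed points on totally bounded convex sets. -/

set_option autoImplicit false

namespace Crest.Agent.R74

open Crest.Agent.R137 Finset

theorem continuous_scale {κ : Type} [Fintype κ] {h : (κ → ℝ) → κ → ℝ} (hc : Continuous h) {C : ℝ}
    (hb : ∀ w, ‖h w‖ ≤ C) : Continuous fun q : ℝ × (κ → ℝ) => q.1 • h (q.1⁻¹ • q.2) := by
  rw [continuous_iff_continuousAt]
  rintro ⟨t, y⟩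
  by_cases ht : t = 0
  · subst ht
    unfold ContinuousAt
    simp only [zero_smul]
    refine squeeze_zero_norm (a := fun q : ℝ × (κ → ℝ) => ‖q.1‖ * C) (fun q => ?_) ?_
    · rw [norm_smul]
      exact mul_le_mul_of_nonneg_left (hb _) (norm_nonneg _)
    · have : Continuous fun q : ℝ × (κ → ℝ) => ‖q.1‖ * C := by fun_prop
      simpa using this.tendsto (0, y)
  · refine continuousAt_fst.smul (hc.continuousAt.comp ?_)
    exact (continuousAt_fst.inv₀ ht).smul continuousAt_snd

theorem brouwer {κ : Type} [Fintype κ] {h : (κ → ℝ) → κ → ℝ} (hc : Continuous h) {C : ℝ}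
    (hb : ∀ w, ‖h w‖ ≤ C) : ∃ w, h w = w := by
  classical
  let t : Sph (Option κ) × Sph Unit → ℝ := fun p => p.1.1 none
  let y : Sph (Option κ) × Sph Unit → κ → ℝ := fun p i => p.1.1 (some i)
  have ht : Continuous t :=
    (continuous_apply none).comp (continuous_subtype_val.comp continuous_fst)
  have hy : Continuous y := continuous_pi fun i =>
    (continuous_apply (some i)).comp (continuous_subtype_val.comp continuous_fst)
  obtain ⟨p, hp, -⟩ := product_borsuk_ulam (ι₁ := Option κ) (ι₂ := Unit) (κ₁ := κ) (κ₂ := Empty)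
    (by simp) (by simp) (fun p => y p - t p • h ((t p)⁻¹ • y p)) (fun _ => 0)
    (hy.sub ((continuous_scale hc hb).comp (ht.prodMk hy))) continuous_const
    (fun x z => by
      have e1 : t (antipode _ x, z) = -t (x, z) := rfl
      have e2 : y (antipode _ x, z) = -y (x, z) := rfl
      simp only [e1, e2, inv_neg, neg_smul, smul_neg, neg_neg]
      abel)
    (fun x z => rfl) (fun x z => by simp) (fun x z => by simp)
  have ht0 : t p ≠ 0 := by
    intro h0
    rw [h0, zero_smul, sub_zero] at hp
    refine ne_zero_of_mem_Sph p.1.2 ?_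
    funext i
    cases i with
    | none => exact h0
    | some i => exact congrFun hp i
  refine ⟨(t p)⁻¹ • y p, ?_⟩
  rw [sub_eq_zero] at hp
  conv_rhs => rw [hp]
  rw [inv_smul_smul₀ ht0]

theorem approx_fix {X : Type*} [NormedAddCommGroup X] [NormedSpace ℝ X] {K : Set X}
    (hK : Convex ℝ K) {b₀ : X} (hb₀ : b₀ ∈ K) {T : X → X} (hT : Set.MapsTo T K K)
    (hc : ContinuousOn T K) {κ : Type} [Fintype κ] (b : κ → X) (hb : ∀ i, b i ∈ K) {η : ℝ}
    (hcov : ∀ a ∈ K, ∃ i, ‖a - b i‖ < η) : ∃ a ∈ K, ‖T a - a‖ ≤ η := by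
  classical
  let S : (κ → ℝ) → ℝ := fun w => max 1 (∑ i, max (w i) 0)
  have hS : ∀ w, 0 < S w := fun w => lt_of_lt_of_le one_pos (le_max_left _ _)
  let lam : (κ → ℝ) → Option κ → ℝ := fun w o =>
    o.elim (1 - (∑ i, max (w i) 0) / S w) fun i => max (w i) 0 / S w
  let B : (κ → ℝ) → X := fun w => ∑ o, lam w o • o.elim b₀ b
  have hSc : Continuous S := by fun_prop
  have hlc : ∀ o, Continuous fun w => lam w o := by
    rintro (_ | i)
    · exact continuous_const.sub (Continuous.div (by fun_prop) hSc fun w => (hS w).ne')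
    · exact Continuous.div (by fun_prop) hSc fun w => (hS w).ne'
  have hBc : Continuous B := continuous_finsetSum _ fun o _ => (hlc o).smul continuous_const
  have hBK : ∀ w, B w ∈ K := fun w => by
    refine hK.sum_mem (fun o _ => ?_) ?_ (fun o _ => ?_)
    · cases o with
      | none =>
        have : (∑ i, max (w i) 0) / S w ≤ 1 := (div_le_one (hS w)).2 (le_max_right _ _)
        simp only [lam, Option.elim]
        linarith
      | some i => exact div_nonneg (le_max_right _ _) (hS w).le
    · rw [Fintype.sum_option]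
      simp only [lam, Option.elim]
      rw [← sum_div]
      ring
    · cases o with
      | none => exact hb₀
      | some i => exact hb i
  let m : X → κ → ℝ := fun a i => max (η - ‖a - b i‖) 0
  have hm0 : ∀ a i, 0 ≤ m a i := fun a i => le_max_right _ _
  have hs : ∀ a ∈ K, 0 < ∑ i, m a i := fun a ha => by
    obtain ⟨i, hi⟩ := hcov a ha
    exact sum_pos' (fun j _ => hm0 a j) ⟨i, mem_univ _, lt_max_of_lt_left (by linarith)⟩
  have hTB : Continuous fun w => T (B w) := hc.comp_continuous hBc hBK
  let h : (κ → ℝ) → κ → ℝ := fun w i => m (T (B w)) i / ∑ j, m (T (B w)) j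
  have hmc : ∀ i, Continuous fun w => m (T (B w)) i := fun i =>
    (continuous_const.sub (hTB.sub continuous_const).norm).max continuous_const
  have hhc : Continuous h := continuous_pi fun i =>
    (hmc i).div (continuous_finsetSum _ fun j _ => hmc j) fun w => (hs _ (hT (hBK w))).ne'
  have hh0 : ∀ w i, 0 ≤ h w i := fun w i => div_nonneg (hm0 _ _) (hs _ (hT (hBK w))).le
  have hh1 : ∀ w, ∑ i, h w i = 1 := fun w => by
    simp only [h]
    rw [← sum_div, div_self (hs _ (hT (hBK w))).ne']
  obtain ⟨w, hw⟩ := brouwer hhc (C := 1) fun w => by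
    rw [pi_norm_le_iff_of_nonneg zero_le_one]
    intro i
    rw [Real.norm_eq_abs, abs_of_nonneg (hh0 w i), ← hh1 w]
    exact single_le_sum (fun j _ => hh0 w j) (mem_univ i)
  have w0 : ∀ i, 0 ≤ w i := fun i => hw ▸ hh0 w i
  have w1 : ∑ i, w i = 1 := hw ▸ hh1 w
  have wm : ∀ i, max (w i) 0 = w i := fun i => max_eq_left (w0 i)
  have hBw : B w = ∑ i, w i • b i := by
    simp only [B, lam, S, Fintype.sum_option, Option.elim, wm, w1]
    simp
  refine ⟨B w, hBK w, ?_⟩
  have e : T (B w) - B w = ∑ i, w i • (T (B w) - b i) := by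
    simp only [smul_sub, sum_sub_distrib, ← sum_smul, w1, one_smul, ← hBw]
  rw [e]
  refine (norm_sum_le _ _).trans ?_
  have : ∀ i, ‖w i • (T (B w) - b i)‖ ≤ w i * η := fun i => by
    rw [norm_smul, Real.norm_eq_abs, abs_of_nonneg (w0 i)]
    rcases (w0 i).eq_or_lt with h0 | h0
    · rw [← h0]; simp
    · refine mul_le_mul_of_nonneg_left ?_ h0.le
      by_contra hcon
      have : m (T (B w)) i = 0 := max_eq_right (by linarith [not_le.1 hcon])
      have h2 : h w i = 0 := by simp only [h, this, zero_div]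
      rw [hw] at h2
      exact h0.ne' h2
  refine (sum_le_sum fun i _ => this i).trans ?_
  rw [← sum_mul, w1, one_mul]

end Crest.Agent.R74
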